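import Crest.Agent.H0276.Mat

set_option autoImplicit false
open Finset Crest.AlgebraR.GroupRingDet

namespace Crest.Agent.H0276

variable {G : Type} [Group G]

/-- the lamp group -/
abbrev LA (G : Type) : Type := Multiplicative (G →₀ ZMod 3)

/-- the shift action on the lamps -/
noncomputable def shift (G : Type) [Group G] : G →* MulAut (LA G) where
  toFun g := AddEquiv.toMultiplicative (Finsupp.domCongr (Equiv.mulLeft g))
  map_one' := by
    ext a h
    change (Multiplicative.toAdd a) ((1:G)⁻¹ * h) = (Multiplicative.toAdd a) h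
    rw [inv_one, one_mul]
  map_mul' g g' := by
    ext a h
    change (Multiplicative.toAdd a) ((g * g')⁻¹ * h) = (Multiplicative.toAdd a) (g'⁻¹ * (g⁻¹ * h))
    rw [mul_inv_rev, mul_assoc]

/-- the restricted wreath product -/
abbrev WR (G : Type) [Group G] : Type := LA G ⋊[shift G] G

noncomputable def lamp (h : G) : LA G := Multiplicative.ofAdd (Finsupp.single h 1)

lemma shift_lamp (g h : G) : shift G g (lamp h) = lamp (g * h) := by
  simp [shift, lamp, Finsupp.domCongr]

omit [Group G] in
lemma lamp_pow (h : G) : lamp h ^ 3 = 1 := by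
  rw [lamp, ← ofAdd_nsmul, Finsupp.smul_single]
  have : (3 • (1 : ZMod 3)) = 0 := by decide
  rw [this]; simp

lemma fg_WR (hG : Group.FG G) : Group.FG (WR G) := by
  obtain ⟨S, hS, hfin⟩ := Group.fg_iff.1 hG
  refine Group.fg_iff.2 ⟨SemidirectProduct.inr '' S ∪ {SemidirectProduct.inl (lamp 1)}, ?_,
    (hfin.image _).union (Set.finite_singleton _)⟩
  set K := Subgroup.closure ((SemidirectProduct.inr : G →* WR G) '' S ∪
    {SemidirectProduct.inl (lamp 1)}) with hK
  have h1 : ∀ g : G, (SemidirectProduct.inr g : WR G) ∈ K := by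
    intro g
    have hg : g ∈ Subgroup.closure S := hS ▸ Subgroup.mem_top g
    have := Subgroup.mem_map_of_mem (SemidirectProduct.inr : G →* WR G) hg
    rw [MonoidHom.map_closure] at this
    exact Subgroup.closure_mono Set.subset_union_left this
  have h2 : ∀ h : G, (SemidirectProduct.inl (lamp h) : WR G) ∈ K := by
    intro h
    have : lamp h = shift G h (lamp 1) := by rw [shift_lamp, mul_one]
    rw [this, SemidirectProduct.inl_aut]
    exact K.mul_mem (K.mul_mem (h1 _) (Subgroup.subset_closure (Or.inr rfl))) (h1 _)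
  have h3 : ∀ a : G →₀ ZMod 3, (SemidirectProduct.inl (Multiplicative.ofAdd a) : WR G) ∈ K := by
    intro a
    induction a using Finsupp.induction_linear with
    | zero => simp
    | add f g hf hg => rw [ofAdd_add, map_mul]; exact K.mul_mem hf hg
    | single h c =>
      have : Multiplicative.ofAdd (Finsupp.single h c) = lamp h ^ c.val := by
        rw [lamp, ← ofAdd_nsmul, Finsupp.smul_single]
        simp
      rw [this, map_pow]
      exact K.pow_mem (h2 h) _
  rw [eq_top_iff]
  intro x _
  rw [← SemidirectProduct.inl_left_mul_inr_right x]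
  exact K.mul_mem (h3 (Multiplicative.toAdd x.left)) (h1 _)

noncomputable def kk (h : G) : MonoidAlgebra ℤ (LA G) := MonoidAlgebra.single (lamp h) 1

omit [Group G] in
lemma kk_pow (h : G) : kk h ^ 3 = 1 := by
  rw [kk, MonoidAlgebra.single_pow, lamp_pow, one_pow]; rfl

noncomputable def FF (h : G) : MonoidAlgebra ℤ (LA G) := 1 + kk h + kk h ^ 2
noncomputable def EE (h : G) : MonoidAlgebra ℤ (LA G) := 2 - kk h - kk h ^ 2
noncomputable def PP (T : Finset G) : MonoidAlgebra ℤ (LA G) := EE 1 * ∏ h ∈ T, FF h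

omit [Group G] in
lemma FF_sq (h : G) : FF h * FF h = 3 * FF h := by
  unfold FF; linear_combination (kk h + 2) * kk_pow h

omit [Group G] in
lemma EE_sq (h : G) : EE h * EE h = 3 * EE h := by
  unfold EE; linear_combination (kk h + 2) * kk_pow h

omit [Group G] in
lemma EE_FF (h : G) : EE h * FF h = 0 := by
  unfold EE FF; linear_combination (-kk h - 2) * kk_pow h

lemma PP_sq (T : Finset G) : PP T * PP T = ((3 ^ (T.card + 1) : ℕ) : _) * PP T := by
  unfold PP
  rw [mul_mul_mul_comm, EE_sq, ← Finset.prod_mul_distrib]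
  simp only [FF_sq, Finset.prod_mul_distrib, Finset.prod_const]
  push_cast
  ring

noncomputable def sig (g : G) : MonoidAlgebra ℤ (LA G) →+* MonoidAlgebra ℤ (LA G) :=
  MonoidAlgebra.mapDomainRingHom ℤ (shift G g).toMonoidHom

lemma sig_kk (g h : G) : sig g (kk h) = kk (g * h) := by
  simp [sig, kk, shift_lamp]

lemma PP_sig (T : Finset G) {g : G} (hg : g ∈ T) : PP T * sig g (PP T) = 0 := by
  classical
  have e : sig g (EE 1) = EE g := by simp [EE, sig_kk, map_ofNat]
  conv_lhs => arg 2; rw [PP, map_mul, e]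
  generalize sig g (∏ h ∈ T, FF h) = y
  rw [PP, ← Finset.mul_prod_erase T _ hg]
  linear_combination (EE 1 * (∏ x ∈ T.erase g, FF x) * y) * EE_FF g

noncomputable def nu (G : Type) : MonoidAlgebra ℤ (LA G) →+* MonoidAlgebra ℤ (LA G) :=
  MonoidAlgebra.mapDomainRingHom ℤ invMonoidHom

omit [Group G] in
lemma nu_kk (h : G) : nu G (kk h) = kk h ^ 2 := by
  have : (lamp h)⁻¹ = lamp h ^ 2 := by
    rw [inv_eq_iff_mul_eq_one, ← pow_succ', lamp_pow]
  simp [nu, kk, this, MonoidAlgebra.single_pow]

lemma nu_PP (T : Finset G) : nu G (PP T) = PP T := by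
  have h1 : ∀ h : G, nu G (FF h) = FF h := fun h => by
    simp only [FF, map_add, map_one, map_pow, nu_kk]
    linear_combination (kk h) * kk_pow h
  have h2 : nu G (EE (1:G)) = EE 1 := by
    simp only [EE, map_sub, map_ofNat, map_pow, nu_kk]
    linear_combination (-kk (1:G)) * kk_pow (1:G)
  simp only [PP, map_mul, map_prod, h1, h2]

noncomputable def io (G : Type) [Group G] : MonoidAlgebra ℤ (LA G) →+* MonoidAlgebra ℤ (WR G) :=
  MonoidAlgebra.mapDomainRingHom ℤ SemidirectProduct.inl

lemma io_inv (x : MonoidAlgebra ℤ (LA G)) (γ : WR G) :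
    (io G x).coeff γ⁻¹ = (io G (nu G x)).coeff γ := by
  classical
  induction x using MonoidAlgebra.induction_linear with
  | zero => simp
  | add x y hx hy => simp only [map_add, MonoidAlgebra.coeff_add, Finsupp.add_apply, hx, hy]
  | single a r =>
    simp [io, nu, Finsupp.single_apply, eq_inv_iff_mul_eq_one, inv_eq_iff_mul_eq_one]

lemma io_conj (g : G) (x : MonoidAlgebra ℤ (LA G)) :
    MonoidAlgebra.single (SemidirectProduct.inr g) 1 * io G x =
      io G (sig g x) * MonoidAlgebra.single (SemidirectProduct.inr g) 1 := by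
  induction x using MonoidAlgebra.induction_linear with
  | zero => simp
  | add x y hx hy => simp only [map_add, mul_add, add_mul, hx, hy]
  | single a r =>
    simp [io, sig, MonoidAlgebra.single_mul_single, SemidirectProduct.inl_aut]

noncomputable def chi (G : Type) [Group G] : LA G →* ZMod 7 where
  toFun a := 2 ^ ((Multiplicative.toAdd a) 1).val
  map_one' := by simp
  map_mul' a b := by
    have : ∀ x y : ZMod 3, (2 : ZMod 7) ^ (x + y).val = 2 ^ x.val * 2 ^ y.val := by decide
    simp [this]

lemma PP_ne (T : Finset G) (hT : (1:G) ∉ T) : PP T ≠ 0 := by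
  classical
  intro h
  have h1 := congrArg (MonoidAlgebra.lift ℤ (ZMod 7) (LA G) (chi G)) h
  have h2 : MonoidAlgebra.lift ℤ (ZMod 7) (LA G) (chi G) (kk 1) = 2 := by
    simp [kk, chi, lamp]
    rfl
  have h3 : ∀ h ∈ T, MonoidAlgebra.lift ℤ (ZMod 7) (LA G) (chi G) (FF h) = 3 := by
    intro h hh
    have : h ≠ 1 := fun e => hT (e ▸ hh)
    have h4 : MonoidAlgebra.lift ℤ (ZMod 7) (LA G) (chi G) (kk h) = 1 := by
      simp [kk, chi, lamp, this]
    simp only [FF, map_add, map_one, map_pow, h4]
    rfl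
  rw [PP, map_mul, map_prod, Finset.prod_congr rfl h3, map_zero] at h1
  simp only [EE, map_sub, map_ofNat, map_pow, h2, Finset.prod_const] at h1
  have e1 : (2 - 2 - 2 ^ 2 : ZMod 7) ≠ 0 := by decide
  have e2 : (3 : ZMod 7) ≠ 0 := by decide
  have : Fact (Nat.Prime 7) := ⟨by norm_num⟩
  exact mul_ne_zero e1 (pow_ne_zero _ e2) h1

theorem of_not_directly_finite (G : Type) [Group G] (hG : Group.FG G)
    (a b : MonoidAlgebra (ZMod 2) G) (hab : a * b = 1) (hba : b * a ≠ 1) :
    ∃ (G : Type) (_ : Group G) (n : ℕ) (A : Matrix (Fin n) (Fin n) (MonoidAlgebra ℤ G))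
      (H : Type) (_ : NormedAddCommGroup H) (_ : InnerProductSpace ℂ H) (_ : CompleteSpace H)
      (b : HilbertBasis (Fin n × G) ℂ H) (T : H →L[ℂ] H),
      Group.FG G ∧ 1 ≤ n ∧ IsUnit (A.map (MonoidAlgebra.mapRingHom G (Int.castRingHom ℚ))) ∧
      IsRegularRepOperator b A T ∧ logDet b T < 0 := by
  classical
  set c := 1 - b * a with hc
  have hc0 : c ≠ 0 := fun h => hba (sub_eq_zero.1 h).symm
  obtain ⟨g0, hg0⟩ : c.coeff.support.Nonempty := by
    rw [Finsupp.support_nonempty_iff]; simpa using hc0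
  have hone : ∀ g ∈ c.coeff.support, c.coeff g = 1 := fun g hg => by
    have h1 := Finsupp.mem_support_iff.1 hg
    revert h1
    generalize c.coeff g = z
    revert z
    decide
  set T := (c.coeff.support.image (· * g0⁻¹)).erase 1 with hT
  let j : MonoidAlgebra (ZMod 2) G →+* MonoidAlgebra (ZMod 2) (WR G) :=
    MonoidAlgebra.mapDomainRingHom _ SemidirectProduct.inr
  set P := io G (PP T) with hP
  have hPP : P * P = ((3 ^ (T.card + 1) : ℕ) : _) * P := by
    rw [hP, ← map_mul, PP_sq, map_mul, map_natCast]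
  have hodd : Odd (3 ^ (T.card + 1)) := Odd.pow (by decide)
  set p := red _ P with hp
  have hpp : p * p = p := by
    obtain ⟨k, hk⟩ := hodd
    have h2 : (2 : MonoidAlgebra (ZMod 2) (WR G)) = 0 := by
      rw [MonoidAlgebra.ofNat_def, MonoidAlgebra.single_eq_zero]; rfl
    rw [hp, ← map_mul, hPP, map_mul, map_natCast, hk]
    push_cast
    rw [h2]
    simp
  have hkill : ∀ t ∈ T, p * MonoidAlgebra.single (SemidirectProduct.inr t) 1 * p = 0 := by
    intro t ht
    have h1 : P * MonoidAlgebra.single (SemidirectProduct.inr t) 1 * P = 0 := by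
      rw [hP, mul_assoc, io_conj, ← mul_assoc, ← map_mul, PP_sig T ht, map_zero, zero_mul]
    have := congrArg (red _) h1
    simpa [hp] using this
  set x : MonoidAlgebra (ZMod 2) (WR G) := MonoidAlgebra.single (SemidirectProduct.inr g0⁻¹) 1
    with hx
  have hkey : p * j c * x * p = p := by
    have e : j c = ∑ g ∈ c.coeff.support, MonoidAlgebra.single (SemidirectProduct.inr g) 1 := by
      conv_lhs => rw [← MonoidAlgebra.sum_coeff_single c, Finsupp.sum, map_sum]
      refine Finset.sum_congr rfl fun g hg => ?_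
      rw [hone g hg]
      simp [j]
    rw [e, Finset.mul_sum, Finset.sum_mul, Finset.sum_mul, Finset.sum_eq_single g0]
    · rw [mul_assoc p, hx, MonoidAlgebra.single_mul_single, ← map_mul]
      simpa [← MonoidAlgebra.one_def] using hpp
    · intro g hg hne
      rw [mul_assoc p, hx, MonoidAlgebra.single_mul_single, ← map_mul, mul_one]
      refine hkill _ (Finset.mem_erase.2 ⟨?_, Finset.mem_image_of_mem _ hg⟩)
      rwa [Ne, mul_inv_eq_one]
    · exact fun h => (h hg0).elim
  have hac : a * c = 0 := by rw [hc, mul_sub, mul_one, ← mul_assoc, hab, one_mul, sub_self]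
  have hcb : c * b = 0 := by rw [hc, sub_mul, one_mul, mul_assoc, hab, mul_one, sub_self]
  have hcc : c * c = c := by
    nth_rewrite 1 [hc]
    rw [sub_mul, one_mul, mul_assoc, hac, mul_zero, sub_zero]
  obtain ⟨t0, ht0⟩ := red_surj (j a)
  obtain ⟨t1, ht1⟩ := red_surj (p * j c)
  obtain ⟨s0, hs0⟩ := red_surj (j b)
  obtain ⟨s1, hs1⟩ := red_surj (j c * x * p)
  obtain ⟨A, hA1, hA2⟩ := exists_matrix t0 t1 s0 s1 P _ hodd hPP
    (fun γ => by rw [hP, io_inv, nu_PP])
    (fun h => PP_ne T (Finset.notMem_erase _ _) (MonoidAlgebra.mapDomain_injective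
      SemidirectProduct.inl_injective (h.trans (map_zero (io G)).symm)))
    (by rw [map_mul, ht0, hs0, ← map_mul, hab, map_one])
    (by rw [map_mul, ht0, hs1, ← mul_assoc, ← mul_assoc, ← map_mul, hac]; simp)
    (by rw [map_mul, ht1, hs0, mul_assoc, ← map_mul, hcb]; simp)
    (by
      rw [map_mul, ht1, hs1, ← mul_assoc, ← mul_assoc, mul_assoc p, ← map_mul, hcc, hkey])
  exact ⟨WR G, inferInstance, 3, A, HH (Fin 3 × WR G), inferInstance, inferInstance, inferInstance,
    bb _, _, fg_WR hG, by norm_num, hA1, isRep A, hA2⟩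

/-- version with a finitely presented group -/
lemma fg_of_fp (G : Type) [Group G] (h : Group.IsFinitelyPresented G) : Group.FG G := by
  obtain ⟨n, φ, hφ, -⟩ := h.out
  exact Group.fg_of_surjective hφ

end Crest.Agent.H0276
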