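import Mathlib

set_option autoImplicit false
open Finset

namespace Crest.Agent.H0276

variable {A : Type*} [CStarAlgebra A]

lemma cfc_one_sub (c : ℝ) {a : A} (ha : IsSelfAdjoint a) :
    cfc (fun x : ℝ => 1 - c * x) a = 1 - c • a := by
  rw [cfc_sub _ _ a, cfc_const_mul c _ a, cfc_id' ℝ a, cfc_const 1 a, map_one]

lemma contract {a : A} (ha : IsSelfAdjoint a) (hpos : ∀ x ∈ spectrum ℝ a, 0 < x) :
    ∃ c0 : ℝ, 0 < c0 ∧ ∀ c, 0 < c → c ≤ c0 → ‖1 - c • a‖ < 1 := by
  refine ⟨1 / (‖a‖ + 1), by positivity, fun c hc hc0 => ?_⟩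
  rw [← cfc_one_sub c ha]
  refine norm_cfc_lt one_pos fun x hx => ?_
  have h1 := hpos x hx
  have h2 : ‖x‖ ≤ ‖a‖ := by
    simpa only [cfc_id ℝ a, id] using norm_apply_le_norm_cfc (id : ℝ → ℝ) a hx
  rw [Real.norm_eq_abs, abs_of_pos h1] at h2
  rw [le_div_iff₀ (by positivity)] at hc0
  rw [Real.norm_eq_abs, abs_lt]
  constructor <;> nlinarith

/-- polynomial approximation of `- log (c a)` -/
noncomputable def Fp (c : ℝ) (n : ℕ) (a : A) : A :=
  ∑ k ∈ range n, (1 / (k + 1) : ℝ) • (1 - c • a) ^ (k + 1)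

lemma approx {a : A} (ha : IsSelfAdjoint a) {c r : ℝ} (hc : 0 < c) (hr : ‖1 - c • a‖ ≤ r)
    (hr1 : r < 1) (n : ℕ) :
    ‖cfc Real.log a + Real.log c • (1 : A) + Fp c n a‖ ≤ r ^ (n + 1) / (1 - r) := by
  have hr0 : 0 ≤ r := (norm_nonneg _).trans hr
  have hsp : ∀ x ∈ spectrum ℝ a, |1 - c * x| ≤ r := fun x hx => by
    have := norm_apply_le_norm_cfc (fun x : ℝ => 1 - c * x) a hx
    rw [cfc_one_sub c ha] at this
    exact this.trans hr
  have hpos : ∀ x ∈ spectrum ℝ a, 0 < x := fun x hx => by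
    have := (abs_le.1 (hsp x hx)).2
    by_contra h
    push Not at h
    nlinarith
  have hlog : ContinuousOn Real.log (spectrum ℝ a) :=
    Real.continuousOn_log.mono fun x hx => (hpos x hx).ne'
  have e : cfc Real.log a + Real.log c • (1 : A) + Fp c n a =
      cfc (fun x : ℝ => Real.log x + Real.log c +
        ∑ k ∈ range n, (1 / (k + 1) : ℝ) * (1 - c * x) ^ (k + 1)) a := by
    rw [cfc_add a _ _, cfc_add a _ _, cfc_const _ a, Algebra.algebraMap_eq_smul_one]
    congr 1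
    have : (fun x : ℝ => ∑ k ∈ range n, (1 / (k + 1) : ℝ) * (1 - c * x) ^ (k + 1)) =
        ∑ k ∈ range n, fun x : ℝ => (1 / (k + 1) : ℝ) * (1 - c * x) ^ (k + 1) := by
      funext x; simp
    rw [this, cfc_sum _ a _ (fun k _ => by fun_prop), Fp]
    refine Finset.sum_congr rfl fun k _ => ?_
    rw [cfc_const_mul _ _ a, cfc_pow _ _ a, cfc_one_sub c ha]
  rw [e]
  refine norm_cfc_le (by have : 0 < 1 - r := by linarith
                         positivity) fun x hx => ?_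
  have h1 := hsp x hx
  have h2 := Real.abs_log_sub_add_sum_range_le (x := 1 - c * x) (h1.trans_lt hr1) n
  have e2 : Real.log x + Real.log c +
      ∑ k ∈ range n, (1 / (k + 1) : ℝ) * (1 - c * x) ^ (k + 1) =
      (∑ i ∈ range n, (1 - c * x) ^ (i + 1) / (i + 1)) + Real.log (1 - (1 - c * x)) := by
    rw [sub_sub_cancel, Real.log_mul hc.ne' (hpos x hx).ne']
    rw [Finset.sum_congr rfl (g := fun i : ℕ => (1 - c * x) ^ (i + 1) / (i + 1))
      fun k _ => by ring]
    ring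
  rw [Real.norm_eq_abs, e2]
  refine h2.trans ?_
  have : 0 < 1 - r := by linarith
  gcongr

variable (M : Subalgebra ℝ A) (τ : A →L[ℝ] ℝ)

lemma deriv_tr_pow (htr : ∀ x ∈ M, ∀ y ∈ M, τ (x * y) = τ (y * x)) {X Y : A} (hX : X ∈ M)
    (hY : Y ∈ M) (k : ℕ) (t : ℝ) :
    HasDerivAt (fun s : ℝ => τ ((X + s • Y) ^ (k + 1)))
      ((k + 1 : ℝ) * τ (Y * (X + t • Y) ^ k)) t := by
  have h1 : HasDerivAt (fun s : ℝ => X + s • Y) Y t := by
    simpa using ((hasDerivAt_id t).smul_const Y).const_add X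
  have h2 := τ.hasFDerivAt.comp_hasDerivAt t (h1.fun_pow' (k + 1))
  have hZ : X + t • Y ∈ M := M.add_mem hX (M.smul_mem hY t)
  refine HasDerivAt.congr_deriv h2 ?_
  rw [map_sum, Finset.sum_congr rfl (g := fun _ => τ (Y * (X + t • Y) ^ k))]
  · simp
  · intro i hi
    have hi' : i ≤ k := by simp at hi; omega
    rw [mul_assoc, htr _ (M.pow_mem hZ _) _ (M.mul_mem hY (M.pow_mem hZ _)), mul_assoc, ← pow_add]
    congr 3
    simp only [Nat.pred_succ]
    omega

lemma path (htr : ∀ x ∈ M, ∀ y ∈ M, τ (x * y) = τ (y * x)) {a0 a1 : A} (h0 : a0 ∈ M)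
    (h1 : a1 ∈ M) (s0 : IsSelfAdjoint a0) (s1 : IsSelfAdjoint a1)
    (p0 : ∀ x ∈ spectrum ℝ a0, 0 < x) (p1 : ∀ x ∈ spectrum ℝ a1, 0 < x) :
    (∀ t ∈ Set.Icc (0:ℝ) 1, IsUnit (a0 + t • (a1 - a0))) ∧
    ∀ ia : ℝ → A, (∀ t ∈ Set.Icc (0:ℝ) 1, (a0 + t • (a1 - a0)) * ia t = 1) →
    ∃ K r : ℝ, 0 ≤ r ∧ r < 1 ∧ ∀ n : ℕ, ∃ G G' : ℝ → ℝ, (∀ t, HasDerivAt G (G' t) t) ∧
      (∀ t ∈ Set.Icc (0:ℝ) 1, |G' t - τ ((a1 - a0) * ia t)| ≤ K * r ^ n) ∧
      |G 1 - G 0 - (τ (cfc Real.log a1) - τ (cfc Real.log a0))| ≤ K * r ^ n := by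
  obtain ⟨c0, hc0, H0⟩ := contract s0 p0
  obtain ⟨c1, hc1, H1⟩ := contract s1 p1
  set c := min c0 c1 with hc
  have hcp : 0 < c := lt_min hc0 hc1
  set r := max ‖1 - c • a0‖ ‖1 - c • a1‖ with hr
  have hr1 : r < 1 := max_lt (H0 c hcp (min_le_left _ _)) (H1 c hcp (min_le_right _ _))
  have hr0 : 0 ≤ r := (norm_nonneg _).trans (le_max_left _ _)
  have hrt : ∀ t ∈ Set.Icc (0:ℝ) 1, ‖1 - c • (a0 + t • (a1 - a0))‖ ≤ r := by
    intro t ht
    have e : 1 - c • (a0 + t • (a1 - a0)) = (1 - t) • (1 - c • a0) + t • (1 - c • a1) := by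
      module
    rw [e]
    refine (norm_add_le _ _).trans ?_
    rw [norm_smul, norm_smul, Real.norm_of_nonneg ht.1, Real.norm_of_nonneg (by linarith [ht.2])]
    have ha : ‖1 - c • a0‖ ≤ r := le_max_left _ _
    have hb : ‖1 - c • a1‖ ≤ r := le_max_right _ _
    have := ht.1
    have := ht.2
    nlinarith
  refine ⟨fun t ht => ?_, fun ia hia => ?_⟩
  · have hu := (Units.oneSub _ ((hrt t ht).trans_lt hr1)).isUnit
    simp only [Units.val_oneSub, sub_sub_cancel] at hu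
    have e : a0 + t • (a1 - a0) = algebraMap ℝ A c⁻¹ * (c • (a0 + t • (a1 - a0))) := by
      rw [← Algebra.smul_def, smul_smul, inv_mul_cancel₀ hcp.ne', one_smul]
    rw [e]
    exact ((IsUnit.mk0 _ (inv_ne_zero hcp.ne')).map _).mul hu
  have h1r : 0 < 1 - r := by linarith
  set B := a1 - a0 with hB
  have hBM : B ∈ M := M.sub_mem h1 h0
  refine ⟨max (‖τ‖ * ‖B‖ * ‖(1:A)‖ * (c * ‖(1:A)‖ / (1 - r))) (2 * ‖τ‖ / (1 - r)), r, hr0, hr1,
    fun n => ⟨fun t => - τ (Fp c n (a0 + t • B)),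
      fun t => c * ∑ k ∈ range n, τ (B * (1 - c • (a0 + t • B)) ^ k), fun t => ?_,
      fun t ht => ?_, ?_⟩⟩
  · have e : ∀ s : ℝ, 1 - c • (a0 + s • B) = (1 - c • a0) + s • ((-c) • B) := fun s => by module
    simp only [Fp, map_sum, map_smul, e]
    have h2 := fun k : ℕ => (deriv_tr_pow M τ htr (X := 1 - c • a0) (Y := (-c) • B)
      (M.sub_mem M.one_mem (M.smul_mem h0 c)) (M.smul_mem hBM _) k t).const_smul
        (1 / (k + 1) : ℝ)
    have h3 := (HasDerivAt.fun_sum (u := range n) fun k _ => h2 k).neg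
    refine HasDerivAt.congr_deriv h3 ?_
    rw [Finset.mul_sum, ← Finset.sum_neg_distrib]
    refine Finset.sum_congr rfl fun k _ => ?_
    rw [smul_mul_assoc, map_smul]
    simp only [smul_eq_mul]
    field_simp
  · set X := 1 - c • (a0 + t • B) with hX
    have hXn := hrt t ht
    rw [← hX] at hXn
    have e1 : ia t = c • (1 : A) + X * ia t := by
      rw [hX, sub_mul, smul_mul_assoc, hia t ht]; simp
    have e2 : ∀ m : ℕ, ia t = c • ∑ k ∈ range m, X ^ k + X ^ m * ia t := by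
      intro m
      induction m with
      | zero => simp
      | succ m ih =>
        rw [Finset.sum_range_succ, smul_add, pow_succ, mul_assoc, add_assoc]
        nth_rewrite 2 [e1] at ih
        rw [mul_add, mul_smul_comm, mul_one] at ih
        exact ih
    have hn : ‖ia t‖ ≤ c * ‖(1:A)‖ / (1 - r) := by
      rw [le_div_iff₀ h1r]
      have h2 : ‖ia t‖ ≤ c * ‖(1:A)‖ + r * ‖ia t‖ := by
        conv_lhs => rw [e1]
        refine (norm_add_le _ _).trans (add_le_add ?_ ?_)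
        · rw [norm_smul, Real.norm_of_nonneg hcp.le]
        · exact (norm_mul_le _ _).trans (by gcongr)
      linarith
    have e3 : c * ∑ k ∈ range n, τ (B * X ^ k) - τ (B * ia t) = - τ (B * (X ^ n * ia t)) := by
      conv_lhs => rw [e2 n]
      rw [mul_add, map_add, mul_smul_comm, map_smul, Finset.mul_sum _ _ B, map_sum]
      simp
    dsimp only
    rw [e3, abs_neg]
    refine le_trans ?_ (mul_le_mul_of_nonneg_right (le_max_left _ _) (by positivity))
    have hp : ‖X ^ n‖ ≤ ‖(1:A)‖ * r ^ n := by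
      clear e3
      induction n with
      | zero => simp
      | succ n ih =>
        rw [pow_succ, pow_succ, ← mul_assoc]
        exact (norm_mul_le _ _).trans (by gcongr)
    calc |τ (B * (X ^ n * ia t))| ≤ ‖τ‖ * ‖B * (X ^ n * ia t)‖ := τ.le_opNorm _
      _ ≤ ‖τ‖ * (‖B‖ * (‖X ^ n‖ * ‖ia t‖)) := by
          gcongr
          exact (norm_mul_le _ _).trans (by gcongr; exact norm_mul_le _ _)
      _ ≤ ‖τ‖ * (‖B‖ * ((‖(1:A)‖ * r ^ n) * (c * ‖(1:A)‖ / (1 - r)))) := by gcongr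
      _ = _ := by ring
  · have a0' := approx s0 hcp (le_max_left _ _ : _ ≤ r) hr1 n
    have a1' := approx s1 hcp (le_max_right _ _ : _ ≤ r) hr1 n
    have e : - τ (Fp c n (a0 + (1:ℝ) • B)) - - τ (Fp c n (a0 + (0:ℝ) • B)) -
        (τ (cfc Real.log a1) - τ (cfc Real.log a0)) =
        τ ((cfc Real.log a0 + Real.log c • (1 : A) + Fp c n a0) -
          (cfc Real.log a1 + Real.log c • (1 : A) + Fp c n a1)) := by
      simp only [hB, one_smul, zero_smul, add_zero, add_sub_cancel, map_sub, map_add]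
      ring
    dsimp only
    rw [e]
    refine le_trans ?_ (mul_le_mul_of_nonneg_right (le_max_right _ _) (by positivity))
    have hrr : r ^ (n + 1) ≤ r ^ n := pow_le_pow_of_le_one hr0 hr1.le (by omega)
    calc _ ≤ ‖τ‖ * _ := τ.le_opNorm _
      _ ≤ ‖τ‖ * (r ^ (n + 1) / (1 - r) + r ^ (n + 1) / (1 - r)) := by
          gcongr
          exact (norm_sub_le _ _).trans (add_le_add a0' a1')
      _ ≤ ‖τ‖ * (r ^ n / (1 - r) + r ^ n / (1 - r)) := by gcongr
      _ = _ := by ring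

lemma pos_spec {x : A} (hx : IsUnit x) : ∀ s ∈ spectrum ℝ (star x * x), 0 < s := by
  intro s hs
  refine lt_of_le_of_ne (spectrum_star_mul_self_nonneg s hs) fun h => ?_
  rw [← h] at hs
  exact spectrum.zero_notMem ℝ (hx.star.mul hx) hs

/-- multiplicativity of the Fuglede-Kadison determinant -/
lemma fk_mul (htr : ∀ x ∈ M, ∀ y ∈ M, τ (x * y) = τ (y * x))
    (hstar : ∀ x ∈ M, star x ∈ M) (hinv : ∀ x ∈ M, ∀ y, x * y = 1 → y * x = 1 → y ∈ M)
    {x y : A} (hx : x ∈ M) (hy : y ∈ M) (ux : IsUnit x) (uy : IsUnit y) :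
    τ (cfc Real.log (star (x * y) * (x * y))) =
      τ (cfc Real.log (star x * x)) + τ (cfc Real.log (star y * y)) := by
  set a := star x * x with ha
  have haM : a ∈ M := M.mul_mem (hstar x hx) hx
  obtain ⟨U1, P1⟩ := path M τ htr M.one_mem haM (IsSelfAdjoint.one A) (IsSelfAdjoint.star_mul_self x)
    (by simpa using pos_spec (isUnit_one (M := A))) (pos_spec ux)
  obtain ⟨-, P2⟩ := path M τ htr (M.mul_mem (hstar y hy) hy)
    (M.mul_mem (hstar _ (M.mul_mem hx hy)) (M.mul_mem hx hy)) (IsSelfAdjoint.star_mul_self y)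
    (IsSelfAdjoint.star_mul_self (x * y)) (pos_spec uy) (pos_spec (ux.mul uy))
  obtain ⟨y', hy1, hy2⟩ := isUnit_iff_exists.1 uy
  have hy'M : y' ∈ M := hinv y hy y' hy1 hy2
  let ia : ℝ → A := fun t => Ring.inverse (1 + t • (a - 1))
  have hia : ∀ t ∈ Set.Icc (0:ℝ) 1, (1 + t • (a - 1)) * ia t = 1 := fun t ht =>
    Ring.mul_inverse_cancel _ (U1 t ht)
  have hiaM : ∀ t ∈ Set.Icc (0:ℝ) 1, ia t ∈ M := fun t ht =>
    hinv _ (M.add_mem M.one_mem (M.smul_mem (M.sub_mem haM M.one_mem) t)) _ (hia t ht)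
      (Ring.inverse_mul_cancel _ (U1 t ht))
  have hs : star y * star y' = 1 := by rw [← star_mul, hy2, star_one]
  have hs' : star y' * star y = 1 := by rw [← star_mul, hy1, star_one]
  have eB : star (x * y) * (x * y) - star y * y = star y * (a - 1) * y := by
    rw [ha, star_mul]; noncomm_ring
  obtain ⟨K1, r1, h1, h1', Q1⟩ := P1 ia hia
  obtain ⟨K2, r2, h2, h2', Q2⟩ := P2 (fun t => y' * ia t * star y') (fun t ht => by
    rw [eB]
    have : star y * y + t • (star y * (a - 1) * y) = star y * (1 + t • (a - 1)) * y := by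
      simp only [mul_add, add_mul, mul_one, mul_smul_comm, smul_mul_assoc]
    rw [this]
    calc _ = star y * ((1 + t • (a - 1)) * (y * y') * ia t) * star y' := by noncomm_ring
      _ = 1 := by rw [hy1, mul_one, hia t ht, mul_one, hs])
  have hsame : ∀ t ∈ Set.Icc (0:ℝ) 1,
      τ ((star (x * y) * (x * y) - star y * y) * (y' * ia t * star y')) = τ ((a - 1) * ia t) := by
    intro t ht
    rw [eB]
    have e : star y * (a - 1) * y * (y' * ia t * star y') =
        star y * ((a - 1) * (y * y') * ia t * star y') := by noncomm_ring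
    rw [e, hy1, mul_one, htr _ (hstar y hy) _ (M.mul_mem (M.mul_mem (M.sub_mem haM M.one_mem)
      (hiaM t ht)) (hstar _ hy'M)), mul_assoc, hs', mul_one]
  have hlog1 : cfc Real.log (1 : A) = 0 := by
    rw [cfc_apply_one]; simp
  rw [hlog1, map_zero, sub_zero] at Q1
  have hbound : ∀ n : ℕ, |τ (cfc Real.log (star (x * y) * (x * y))) -
      τ (cfc Real.log (star y * y)) - τ (cfc Real.log a)| ≤ 2 * (K1 * r1 ^ n + K2 * r2 ^ n) := by
    intro n
    obtain ⟨G1, G1', d1, b1, c1⟩ := Q1 n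
    obtain ⟨G2, G2', d2, b2, c2⟩ := Q2 n
    have hm := norm_image_sub_le_of_norm_deriv_le_segment_01' (f := fun t => G2 t - G1 t)
      (f' := fun t => G2' t - G1' t) (C := K1 * r1 ^ n + K2 * r2 ^ n)
      (fun t _ => ((d2 t).sub (d1 t)).hasDerivWithinAt) (fun t ht => by
        have ht' : t ∈ Set.Icc (0:ℝ) 1 := ⟨ht.1, ht.2.le⟩
        have u1 := abs_le.1 (b1 t ht')
        have u2 := abs_le.1 (b2 t ht')
        rw [hsame t ht'] at u2
        rw [Real.norm_eq_abs, abs_le]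
        constructor <;> linarith [u1.1, u1.2, u2.1, u2.2])
    rw [Real.norm_eq_abs, abs_le] at hm
    have u1 := abs_le.1 c1
    have u2 := abs_le.1 c2
    rw [abs_le]
    constructor <;> linarith [u1.1, u1.2, u2.1, u2.2, hm.1, hm.2]
  have hlim : Filter.Tendsto (fun n : ℕ => 2 * (K1 * r1 ^ n + K2 * r2 ^ n)) Filter.atTop
      (nhds (2 * (K1 * 0 + K2 * 0))) :=
    (((tendsto_pow_atTop_nhds_zero_of_lt_one h1 h1').const_mul K1).add
      ((tendsto_pow_atTop_nhds_zero_of_lt_one h2 h2').const_mul K2)).const_mul 2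
  have := ge_of_tendsto' hlim hbound
  simp only [mul_zero, add_zero, abs_nonpos_iff] at this
  linarith

/-- logarithm of a two-valued positive element -/
lemma log_proj {e : A} (he : IsSelfAdjoint e) (hee : e * e = e) (s : ℝ) :
    cfc Real.log (1 + s • e) = Real.log (1 + s) • e := by
  have e1 : cfc (fun x : ℝ => 1 + s * x) e = 1 + s • e := by
    rw [cfc_add e _ _, cfc_const_mul s _ e, cfc_id' ℝ e, cfc_const 1 e, map_one]
  have hsp : spectrum ℝ e ⊆ {0, 1} := IsIdempotentElem.spectrum_subset ℝ hee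
  have hfin : (spectrum ℝ e).Finite := (Set.toFinite _).subset hsp
  rw [← e1, ← cfc_comp' Real.log _ e (hg := (hfin.image _).continuousOn _)]
  rw [cfc_congr (g := fun x : ℝ => Real.log (1 + s) * x), cfc_const_mul _ _ e, cfc_id' ℝ e]
  intro x hx
  rcases hsp hx with h | h
  · simp [h]
  · rw [Set.mem_singleton_iff] at h
    simp [h]

end Crest.Agent.H0276
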