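import Crest.Agent.H0276.Rep

set_option autoImplicit false
open Finset

namespace Crest.Agent.H0276

variable {Γ : Type} [Group Γ] {n : ℕ}

lemma unit_proj {E : Matrix (Fin n) (Fin n) (MonoidAlgebra ℚ Γ)} (hE : E * E = E) {N : ℚ}
    (hN : N ≠ 0) : IsUnit (1 + (N - 1) • E) := by
  refine isUnit_iff_exists.2 ⟨1 + (N⁻¹ - 1) • E, ?_, ?_⟩ <;>
  · simp only [add_mul, mul_add, one_mul, mul_one, smul_mul_assoc, mul_smul_comm, hE, smul_add,
      smul_smul, add_assoc, ← add_smul]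
    rw [add_eq_left]
    convert zero_smul ℚ E
    field_simp
    ring

lemma unip {F T : Matrix (Fin n) (Fin n) (MonoidAlgebra ℚ Γ)} (hF : F * F = F) (h1 : F * T = T)
    (h2 : T * F = 0) : IsUnit (1 + T) ∧ Del (1 + T) = 0 := by
  have hT : T * T = 0 := by
    nth_rewrite 2 [← h1]
    rw [← mul_assoc, h2, zero_mul]
  have hu : IsUnit (1 + T) := by
    refine isUnit_iff_exists.2 ⟨1 - T, ?_, ?_⟩
    · simp [add_mul, mul_sub, hT]
    · simp [sub_mul, mul_add, hT]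
  have hC := unit_proj hF (N := 2) two_ne_zero
  have e : (1 + ((2:ℚ) - 1) • F) * (1 + T) = (1 + T) * ((1 + T) * (1 + ((2:ℚ) - 1) • F)) := by
    have : ((2:ℚ) - 1) = 1 := by norm_num
    simp only [this, one_smul, add_mul, mul_add, one_mul, mul_one, h1, h2, hT, add_zero]
    abel
  have h3 := congrArg Del e
  rw [Del_mul hC hu, Del_mul hu (hu.mul hC), Del_mul hu hC] at h3
  exact ⟨hu, by linarith⟩

/-- reduction modulo two -/
noncomputable abbrev red (Γ : Type) [Group Γ] : MonoidAlgebra ℤ Γ →+* MonoidAlgebra (ZMod 2) Γ :=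
  MonoidAlgebra.mapRingHom Γ (Int.castRingHom (ZMod 2))

lemma red_ker (x : MonoidAlgebra ℤ Γ) (h : red Γ x = 0) : ∃ z, x = 2 * z := by
  refine ⟨MonoidAlgebra.ofCoeff (x.coeff.mapRange (· / 2) (by simp)), ?_⟩
  rw [two_mul]
  ext g
  have h1 : ((x.coeff g : ℤ) : ZMod 2) = 0 := by
    have := congrArg (fun y => y.coeff g) h
    simpa using this
  have h2 := (ZMod.intCast_zmod_eq_zero_iff_dvd _ 2).1 h1
  simp only [MonoidAlgebra.coeff_add, Finsupp.add_apply, Finsupp.mapRange_apply]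
  push_cast at h2
  omega

lemma red_surj : Function.Surjective (red Γ) :=
  MonoidAlgebra.map_surjective _ ZMod.intCast_surjective

/-- lifting a surjection modulo two -/
lemma lift_two {R : Type*} [Ring R] (t0 t1 s0 s1 u w z00 z01 z10 z11 : R) (j : ℕ) (hj : j ≠ 0)
    (huw : u * w = 2 ^ j) (h00 : t0 * s0 - 1 = 2 * z00) (h01 : t0 * s1 = 2 * z01)
    (h10 : t1 * s0 = 2 * z10) (h11 : t1 * s1 + u - 1 = 2 * z11) :
    ∃ s0' s1' r00 r01 r10 r11 : R, t0 * s0' + 2 ^ j * r00 = 1 ∧ t0 * s1' + 2 ^ j * r01 = 0 ∧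
      t1 * s0' + u * r10 = 0 ∧ t1 * s1' + u * r11 = 1 := by
  obtain ⟨i, rfl⟩ := Nat.exists_eq_succ_of_ne_zero hj
  let Z : Matrix (Fin 2) (Fin 2) R := - !![z00 + 2 ^ i, z01; z10, z11]
  let TS : Matrix (Fin 2) (Fin 2) R := !![t0 * s0, t0 * s1; t1 * s0, t1 * s1]
  let D : Matrix (Fin 2) (Fin 2) R := !![2 ^ (i + 1), 0; 0, u]
  let σ : Matrix (Fin 2) (Fin 2) R := !![1, 0; 0, w]
  have e1 : TS + D = 1 - (2 : ℕ) • Z := by
    ext a b
    fin_cases a <;> fin_cases b <;> simp [TS, D, Z, two_smul]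
    · rw [pow_succ', two_mul, eq_add_of_sub_eq h00, two_mul]; abel
    · rw [h01, two_mul]
    · rw [h10, two_mul]
    · rw [eq_add_of_sub_eq h11, two_mul]; abel
  have e2 : D * σ = (2 ^ (i + 1) : ℕ) • 1 := by
    ext a b
    fin_cases a <;> fin_cases b <;> simp [D, σ, Matrix.mul_apply, Fin.sum_univ_two, huw]
  set G := ∑ k ∈ range (i + 1), ((2 : ℕ) • Z) ^ k with hG
  have e3 : TS * G + D * (G + σ * Z ^ (i + 1)) = 1 := by
    rw [mul_add, ← add_assoc, ← add_mul, e1, hG, mul_neg_geom_sum, ← mul_assoc, e2, smul_pow,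
      smul_mul_assoc, one_mul, sub_add_cancel]
  generalize G + σ * Z ^ (i + 1) = ρ at e3
  refine ⟨s0 * G 0 0 + s1 * G 1 0, s0 * G 0 1 + s1 * G 1 1, ρ 0 0, ρ 0 1, ρ 1 0, ρ 1 1,
    ?_, ?_, ?_, ?_⟩
  · simpa [TS, D, Matrix.vecMul, dotProduct, Fin.sum_univ_two, mul_add, mul_assoc] using
      congrFun (congrFun e3 0) 0
  · simpa [TS, D, Matrix.vecMul, dotProduct, Fin.sum_univ_two, mul_add, mul_assoc] using
      congrFun (congrFun e3 0) 1
  · simpa [TS, D, Matrix.vecMul, dotProduct, Fin.sum_univ_two, mul_add, mul_assoc] using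
      congrFun (congrFun e3 1) 0
  · simpa [TS, D, Matrix.vecMul, dotProduct, Fin.sum_univ_two, mul_add, mul_assoc] using
      congrFun (congrFun e3 1) 1

lemma coeff_one_pos {p : MonoidAlgebra ℚ Γ} (hp : p * p = p) (hs : ∀ g, p.coeff g⁻¹ = p.coeff g)
    (h0 : p ≠ 0) : 0 < p.coeff 1 := by
  rw [← hp, MonoidAlgebra.coeff_mul_apply_left]
  simp only [mul_one, hs]
  refine Finset.sum_pos (fun g hg => mul_self_pos.2 (Finsupp.mem_support_iff.1 hg)) ?_
  rw [Finsupp.support_nonempty_iff]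
  simpa using h0

theorem exists_matrix (t0 t1 s0 s1 P : MonoidAlgebra ℤ Γ) (m : ℕ) (hm : Odd m)
    (hP : P * P = m * P) (hs : ∀ g, P.coeff g⁻¹ = P.coeff g) (h0 : P ≠ 0)
    (h00 : red Γ (t0 * s0) = 1) (h01 : red Γ (t0 * s1) = 0) (h10 : red Γ (t1 * s0) = 0)
    (h11 : red Γ (t1 * s1) = red Γ P) :
    ∃ A : Matrix (Fin 3) (Fin 3) (MonoidAlgebra ℤ Γ),
      IsUnit (A.map (MonoidAlgebra.mapRingHom Γ (Int.castRingHom ℚ))) ∧
      Del (A.map (MonoidAlgebra.mapRingHom Γ (Int.castRingHom ℚ))) < 0 := by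
  have hm0 : 0 < m := hm.pos
  set j := Nat.totient m with hjdef
  have hj : j ≠ 0 := (Nat.totient_pos.2 hm0).ne'
  obtain ⟨κ, hκ⟩ : ∃ κ, 2 ^ j = 1 + m * κ := by
    have h1 : 2 ^ j ≡ 1 [MOD m] := Nat.ModEq.pow_totient (Nat.coprime_two_left.2 hm)
    obtain ⟨κ, hκ⟩ := (Nat.modEq_iff_dvd' Nat.one_le_two_pow).1 h1.symm
    exact ⟨κ, by have := Nat.one_le_two_pow (n := j); omega⟩
  have hκodd : Odd κ := by
    have h1 : Even (1 + m * κ) := by rw [← hκ]; exact (Nat.even_pow' hj).2 even_two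
    rw [add_comm, Nat.even_add_one, Nat.not_even_iff_odd] at h1
    exact Nat.Odd.of_mul_right h1
  have hκR : (2 : MonoidAlgebra ℤ Γ) ^ j = 1 + m * κ := by exact_mod_cast congrArg Nat.cast hκ
  have huw : (1 + κ * P) * (2 ^ j - κ * P) = (2 : MonoidAlgebra ℤ Γ) ^ j := by
    rw [hκR]
    simp only [← nsmul_eq_mul, add_mul, mul_sub, mul_add, one_mul, mul_one, smul_mul_assoc,
      mul_smul_comm, hP]
    rw [← Nat.cast_comm]
    simp only [← nsmul_eq_mul]
    module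
  obtain ⟨z00, hz00⟩ := red_ker (t0 * s0 - 1) (by rw [map_sub, h00, map_one, sub_self])
  obtain ⟨z01, hz01⟩ := red_ker _ h01
  obtain ⟨z10, hz10⟩ := red_ker _ h10
  obtain ⟨z11, hz11⟩ := red_ker (t1 * s1 + (1 + (κ : MonoidAlgebra ℤ Γ) * P) - 1) (by
    obtain ⟨k, hk⟩ := hκodd
    have h2 : (2 : MonoidAlgebra (ZMod 2) Γ) = 0 := by
      rw [MonoidAlgebra.ofNat_def, MonoidAlgebra.single_eq_zero]; rfl
    rw [map_sub, map_add, h11, map_add, map_mul, map_natCast, map_one, hk]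
    push_cast
    rw [h2]
    have : red Γ P + red Γ P = 0 := by rw [← two_mul, h2, zero_mul]
    simp only [zero_mul, zero_add, one_mul]
    rw [← this]; abel)
  obtain ⟨s0', s1', r00, r01, r10, r11, q00, q01, q10, q11⟩ :=
    lift_two t0 t1 s0 s1 _ _ z00 z01 z10 z11 j hj huw hz00 hz01 hz10 hz11
  set φ := MonoidAlgebra.mapRingHom Γ (Int.castRingHom ℚ) with hφ
  let V : Matrix (Fin 3) (Fin 3) (MonoidAlgebra ℤ Γ) :=
    !![2 ^ j, s0', s1'; -t0, r00, r01; -((2 ^ j - κ * P) * t1), r10, r11]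
  let W : Matrix (Fin 3) (Fin 3) (MonoidAlgebra ℤ Γ) :=
    !![1, 0, 0; t0, 2 ^ j, 0; t1, 0, 1 + κ * P]
  let U : Matrix (Fin 3) (Fin 3) (MonoidAlgebra ℤ Γ) := !![2 ^ j, s0', s1'; 0, 1, 0; 0, 0, 1]
  have hc : ∀ x : MonoidAlgebra ℤ Γ, x * 2 ^ j = 2 ^ j * x := fun x =>
    ((Commute.ofNat_right x 2).pow_right j).eq
  have hWV : W * V = U := by
    ext1 a b
    fin_cases a <;> fin_cases b <;>
      simp [W, V, U, Matrix.mul_apply, Fin.sum_univ_three, q00, q01, q10, q11]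
    · rw [hc, add_neg_cancel]
    · rw [← mul_assoc, huw, hc, add_neg_cancel]
  let p : MonoidAlgebra ℚ Γ := (m : ℚ)⁻¹ • φ P
  have hmQ : (m : ℚ) ≠ 0 := by positivity
  have hpp : p * p = p := by
    simp only [p, smul_mul_assoc, mul_smul_comm]
    rw [← map_mul, hP, map_mul, map_natCast, ← nsmul_eq_mul, ← Nat.cast_smul_eq_nsmul ℚ,
      smul_smul, smul_smul]
    congr 1
    field_simp
  have hps : ∀ g, p.coeff g⁻¹ = p.coeff g := fun g => by simp [p, hφ, hs]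
  have hp0 : p ≠ 0 := by
    intro h
    apply h0
    ext g
    have := congrArg (fun y => y.coeff g) h
    simpa [p, hφ, hm0.ne'] using this
  have hpos := coeff_one_pos hpp hps hp0
  set N : ℚ := 2 ^ j with hN
  have hNm : N - 1 = m * κ := by
    have : N = 1 + m * κ := by rw [hN]; exact_mod_cast congrArg Nat.cast hκ
    linarith
  have hN1 : 1 < N := one_lt_pow₀ (by norm_num) hj
  have hsm : (1 : MonoidAlgebra ℚ Γ) + (N - 1) • 1 = 2 ^ j := by
    rw [sub_smul, one_smul, add_sub_cancel, hN, ← Algebra.algebraMap_eq_smul_one, map_pow,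
      map_ofNat]
  let E1 : Matrix (Fin 3) (Fin 3) (MonoidAlgebra ℚ Γ) := !![0, 0, 0; 0, 1, 0; 0, 0, p]
  let E0 : Matrix (Fin 3) (Fin 3) (MonoidAlgebra ℚ Γ) := !![1, 0, 0; 0, 0, 0; 0, 0, 0]
  let F1 : Matrix (Fin 3) (Fin 3) (MonoidAlgebra ℚ Γ) := !![0, 0, 0; 0, 1, 0; 0, 0, 1]
  let T : Matrix (Fin 3) (Fin 3) (MonoidAlgebra ℚ Γ) := !![0, 0, 0; φ t0, 0, 0; φ t1, 0, 0]
  let S : Matrix (Fin 3) (Fin 3) (MonoidAlgebra ℚ Γ) := !![0, φ s0', φ s1'; 0, 0, 0; 0, 0, 0]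
  have hE1 : E1 * E1 = E1 := by
    ext1 a b
    fin_cases a <;> fin_cases b <;> simp [E1, Matrix.mul_apply, Fin.sum_univ_three, hpp]
  have hE0 : E0 * E0 = E0 := by
    ext1 a b
    fin_cases a <;> fin_cases b <;> simp [E0, Matrix.mul_apply, Fin.sum_univ_three]
  have hF1 : F1 * F1 = F1 := by
    ext1 a b
    fin_cases a <;> fin_cases b <;> simp [F1, Matrix.mul_apply, Fin.sum_univ_three]
  obtain ⟨uT, dT⟩ := unip (T := T) hF1
    (by ext1 a b
        fin_cases a <;> fin_cases b <;> simp [F1, T, Matrix.mul_apply, Fin.sum_univ_three])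
    (by ext1 a b
        fin_cases a <;> fin_cases b <;> simp [F1, T, Matrix.mul_apply, Fin.sum_univ_three])
  obtain ⟨uS, dS⟩ := unip (T := S) hE0
    (by ext1 a b
        fin_cases a <;> fin_cases b <;> simp [E0, S, Matrix.mul_apply, Fin.sum_univ_three])
    (by ext1 a b
        fin_cases a <;> fin_cases b <;> simp [E0, S, Matrix.mul_apply, Fin.sum_univ_three])
  have hone : ∀ g : Γ, (1 : MonoidAlgebra ℚ Γ).coeff g⁻¹ = (1 : MonoidAlgebra ℚ Γ).coeff g := by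
    classical
    intro g
    simp [MonoidAlgebra.one_def, Finsupp.single_apply, eq_comm]
  have d1 := Del_proj hE1 (fun a b g => by
    fin_cases a <;> fin_cases b <;> simp [E1, hone, hps]) N
  have d0 := Del_proj hE0 (fun a b g => by
    fin_cases a <;> fin_cases b <;> simp [E0, hone]) N
  have u1 := unit_proj hE1 (N := N) (by positivity)
  have u0 := unit_proj hE0 (N := N) (by positivity)
  have eW : W.map φ = (1 + T) * (1 + (N - 1) • E1) := by
    ext1 a b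
    fin_cases a <;> fin_cases b <;>
      simp [W, T, E1, Matrix.mul_apply, Fin.sum_univ_three, Matrix.one_apply, hsm, map_ofNat]
    simp only [p]
    rw [smul_smul, hNm, ← nsmul_eq_mul, ← Nat.cast_smul_eq_nsmul ℚ]
    congr 1
    field_simp
  have eU : U.map φ = (1 + S) * (1 + (N - 1) • E0) := by
    ext1 a b
    fin_cases a <;> fin_cases b <;>
      simp [U, S, E0, Matrix.mul_apply, Fin.sum_univ_three, Matrix.one_apply, hsm, map_ofNat]
  have hmul : W.map φ * V.map φ = U.map φ := by rw [← Matrix.map_mul, hWV]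
  have uW : IsUnit (W.map φ) := eW ▸ uT.mul u1
  have uU : IsUnit (U.map φ) := eU ▸ uS.mul u0
  have uV : IsUnit (V.map φ) := by
    rw [← hmul] at uU
    obtain ⟨w, hw⟩ := uW
    rw [← hw] at uU
    exact (Units.isUnit_units_mul w _).1 uU
  refine ⟨V, uV, ?_⟩
  have h3 := Del_mul uW uV
  rw [hmul, eU, eW, Del_mul uS u0, Del_mul uT u1, dT, dS, d1, d0] at h3
  simp only [E0, E1, Fin.sum_univ_three] at h3
  simp at h3
  have hlog : 0 < Real.log N := Real.log_pos (by exact_mod_cast hN1)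
  have hpos' : (0:ℝ) < (p.coeff 1 : ℚ) := by exact_mod_cast hpos
  nlinarith [mul_pos hlog hpos']

end Crest.Agent.H0276
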