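import Crest.Agent.H0276.FK
import Crest.Prelude.Def_GroupRingDet

set_option autoImplicit false
open Finset Crest.AlgebraR.GroupRingDet

namespace Crest.Agent.H0276

section generic
variable {G : Type} [Group G] {n : ℕ} {H : Type} [NormedAddCommGroup H] [InnerProductSpace ℂ H]
  [CompleteSpace H] (b : HilbertBasis (Fin n × G) ℂ H) (τ : (H →L[ℂ] H) →L[ℝ] ℝ)

lemma logDet_mul (hτ : ∀ S, τ S = opTrace b S) (M : Subalgebra ℝ (H →L[ℂ] H))
    (htr : ∀ x ∈ M, ∀ y ∈ M, τ (x * y) = τ (y * x))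
    (hstar : ∀ x ∈ M, star x ∈ M) (hinv : ∀ x ∈ M, ∀ y, x * y = 1 → y * x = 1 → y ∈ M)
    {x y : H →L[ℂ] H} (hx : x ∈ M) (hy : y ∈ M) (ux : IsUnit x) (uy : IsUnit y) :
    logDet b (x * y) = logDet b x + logDet b y := by
  have : τ (cfc Real.log (star (x * y) * (x * y))) =
      τ (cfc Real.log (star x * x)) + τ (cfc Real.log (star y * y)) :=
    fk_mul M τ htr hstar hinv hx hy ux uy
  simp only [logDet, ← hτ]
  rw [this]
  ring

lemma logDet_proj (hτ : ∀ S, τ S = opTrace b S) {e : H →L[ℂ] H} (he : IsSelfAdjoint e)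
    (hee : e * e = e) (N : ℝ) : logDet b (1 + (N - 1) • e) = Real.log N * τ e := by
  have hst : ∀ s : ℝ, star (s • e) = s • e := fun s => by
    have : s • e = (s : ℂ) • e := rfl
    rw [this, star_smul, he.star_eq]
    simp
  have e1 : star (1 + (N - 1) • e) * (1 + (N - 1) • e) = 1 + (N ^ 2 - 1) • e := by
    rw [star_add, star_one, hst]
    simp only [add_mul, mul_add, one_mul, mul_one, smul_mul_assoc, mul_smul_comm, hee]
    module
  have hl : cfc Real.log (1 + (N ^ 2 - 1) • e) = Real.log (1 + (N ^ 2 - 1)) • e :=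
    log_proj he hee _
  simp only [logDet, ← hτ]
  rw [e1, hl, map_smul, add_sub_cancel, Real.log_pow, smul_eq_mul]
  push_cast
  ring

end generic

/-- the Hilbert space -/
abbrev HH (ι : Type) : Type := lp (fun _ : ι => ℂ) 2

noncomputable def bb (ι : Type) : HilbertBasis ι ℂ (HH ι) := default

lemma inner_bb {ι : Type} (k : ι) (x : HH ι) : inner ℂ (bb ι k) x = x k := by
  rw [← (bb ι).repr_apply_apply]; rfl

lemma bb_apply {ι : Type} [DecidableEq ι] (l k : ι) : bb ι l k = if k = l then 1 else 0 := by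
  rw [← inner_bb, orthonormal_iff_ite.1 (bb ι).orthonormal]

lemma ext_bb {ι : Type} {S T : HH ι →L[ℂ] HH ι} (h : ∀ l, S (bb ι l) = T (bb ι l)) : S = T := by
  refine ContinuousLinearMap.ext_on (s := Set.range (bb ι)) ?_ ?_
  · rw [Submodule.dense_iff_topologicalClosure_eq_top]
    exact (bb ι).dense_span
  · rintro _ ⟨l, rfl⟩
    exact h l

lemma exists_op {ι : Type} (q : ι → Prop) [DecidablePred q] (θ : ι → ι)
    (hθ : ∀ a b, q a → q b → θ a = θ b → a = b) :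
    ∃ T : HH ι →L[ℂ] HH ι, ∀ x k, T x k = if q k then x (θ k) else 0 := by
  classical
  have h2 : (0:ℝ) < (2 : ENNReal).toReal := by norm_num
  have hb : ∀ (x : HH ι) (s : Finset ι),
      ∑ k ∈ s, ‖if q k then x (θ k) else 0‖ ^ (2 : ENNReal).toReal ≤ ‖x‖ ^ (2 : ENNReal).toReal := by
    intro x s
    refine le_trans (le_of_eq ?_) (lp.sum_rpow_le_norm_rpow h2 x ((s.filter q).image θ))
    rw [Finset.sum_image fun a ha b hb h => hθ a b (mem_filter.1 ha).2 (mem_filter.1 hb).2 h,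
      Finset.sum_filter]
    refine Finset.sum_congr rfl fun k _ => ?_
    split_ifs
    · rfl
    · simp
  let L : HH ι →ₗ[ℂ] HH ι :=
    { toFun := fun x => ⟨fun k => if q k then x (θ k) else 0, memℓp_gen' (hb x)⟩
      map_add' := fun x y => by
        ext k
        simp only [lp.coeFn_add, Pi.add_apply]
        split_ifs <;> simp
      map_smul' := fun c x => by
        ext k
        simp only [lp.coeFn_smul, Pi.smul_apply, RingHom.id_apply]
        split_ifs <;> simp }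
  refine ⟨L.mkContinuous 1 fun x => ?_, fun x k => rfl⟩
  rw [one_mul]
  exact lp.norm_le_of_forall_sum_le h2 (norm_nonneg _) (hb x)

variable {Γ : Type} [Group Γ] {n : ℕ}

/-- finitely supported vectors -/
noncomputable def J (v : Fin n → MonoidAlgebra ℚ Γ) : HH (Fin n × Γ) :=
  ⟨fun k => (((v k.1).coeff k.2 : ℚ) : ℂ), by
    refine (memℓp_zero ?_).of_exponent_ge (by simp)
    refine (Set.Finite.biUnion (s := (Set.univ : Set (Fin n))) Set.finite_univ
      (t := fun i => (fun g => (i, g)) '' ((v i).coeff.support : Set Γ))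
      fun i _ => (Finset.finite_toSet _).image _).subset ?_
    rintro ⟨i, g⟩ h
    simp only [Set.mem_iUnion]
    refine ⟨i, trivial, g, ?_, rfl⟩
    simpa using h⟩

omit [Group Γ] in
lemma J_apply (v : Fin n → MonoidAlgebra ℚ Γ) (i : Fin n) (g : Γ) :
    J v (i, g) = (((v i).coeff g : ℚ) : ℂ) := rfl

lemma J_single (j : Fin n) (g : Γ) :
    J (Pi.single j (MonoidAlgebra.single g 1)) = bb _ (j, g) := by
  classical
  ext ⟨i, h⟩
  rw [J_apply, bb_apply]
  by_cases hij : i = j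
  · subst hij
    simp [Finsupp.single_apply, eq_comm]
    split_ifs <;> simp
  · simp [hij]

lemma exists_rep (X : Matrix (Fin n) (Fin n) (MonoidAlgebra ℚ Γ)) :
    ∃ T : HH (Fin n × Γ) →L[ℂ] HH (Fin n × Γ), ∀ v, T (J v) = J (X.mulVec v) := by
  classical
  have hadd : ∀ X Y : Matrix (Fin n) (Fin n) (MonoidAlgebra ℚ Γ),
      (∃ T : HH (Fin n × Γ) →L[ℂ] HH (Fin n × Γ), ∀ v, T (J v) = J (X.mulVec v)) →
      (∃ T : HH (Fin n × Γ) →L[ℂ] HH (Fin n × Γ), ∀ v, T (J v) = J (Y.mulVec v)) →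
      (∃ T : HH (Fin n × Γ) →L[ℂ] HH (Fin n × Γ), ∀ v, T (J v) = J ((X + Y).mulVec v)) := by
    rintro X Y ⟨S, hS⟩ ⟨T, hT⟩
    refine ⟨S + T, fun v => ?_⟩
    rw [add_apply, hS, hT, Matrix.add_mulVec]
    ext ⟨i, h⟩
    simp [J_apply]
  have hzero : ∃ T : HH (Fin n × Γ) →L[ℂ] HH (Fin n × Γ), ∀ v,
      T (J v) = J ((0 : Matrix (Fin n) (Fin n) (MonoidAlgebra ℚ Γ)).mulVec v) := by
    refine ⟨0, fun v => ?_⟩
    ext ⟨i, h⟩
    simp [J_apply]
  refine Matrix.induction_on' X hzero hadd fun i j x => ?_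
  induction x using MonoidAlgebra.induction_linear with
  | zero => simpa using hzero
  | add x y hx hy =>
    rw [Matrix.single_add]
    exact hadd _ _ hx hy
  | single g c =>
    obtain ⟨T, hT⟩ := exists_op (ι := Fin n × Γ) (fun k => k.1 = i) (fun k => (j, g⁻¹ * k.2))
      (by
        rintro ⟨a, a'⟩ ⟨b, b'⟩ h1 h2 h3
        simp only [Prod.mk.injEq, true_and, mul_right_inj] at h1 h2 h3 ⊢
        exact ⟨h1.trans h2.symm, h3⟩)
    refine ⟨(c : ℂ) • T, fun v => ?_⟩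
    ext ⟨i', h⟩
    rw [smul_apply, lp.coeFn_smul, Pi.smul_apply, hT, J_apply, J_apply,
      Matrix.single_mulVec]
    by_cases hi : i' = i
    · subst hi
      simp
    · simp [hi]

/-- the left regular representation on matrices -/
noncomputable def rep (X : Matrix (Fin n) (Fin n) (MonoidAlgebra ℚ Γ)) :
    HH (Fin n × Γ) →L[ℂ] HH (Fin n × Γ) := (exists_rep X).choose

lemma rep_J (X : Matrix (Fin n) (Fin n) (MonoidAlgebra ℚ Γ)) (v : Fin n → MonoidAlgebra ℚ Γ) :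
    rep X (J v) = J (X.mulVec v) := (exists_rep X).choose_spec v

lemma rep_bb (X : Matrix (Fin n) (Fin n) (MonoidAlgebra ℚ Γ)) (i j : Fin n) (g h : Γ) :
    rep X (bb _ (j, g)) (i, h) = (((X i j).coeff (h * g⁻¹) : ℚ) : ℂ) := by
  rw [← J_single, rep_J, J_apply]
  simp [Matrix.mulVec_single]

lemma rep_mul (X Y : Matrix (Fin n) (Fin n) (MonoidAlgebra ℚ Γ)) :
    rep (X * Y) = rep X * rep Y := by
  refine ext_bb fun ⟨j, g⟩ => ?_
  rw [← J_single, mul_apply_eq_comp, rep_J, rep_J, rep_J, Matrix.mulVec_mulVec]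

lemma rep_one : rep (1 : Matrix (Fin n) (Fin n) (MonoidAlgebra ℚ Γ)) = 1 := by
  refine ext_bb fun ⟨j, g⟩ => ?_
  rw [← J_single, rep_J, Matrix.one_mulVec]
  rfl

lemma rep_one_add (s : ℚ) (X : Matrix (Fin n) (Fin n) (MonoidAlgebra ℚ Γ)) :
    rep (1 + s • X) = 1 + (s : ℝ) • rep X := by
  refine ext_bb fun ⟨j, g⟩ => ?_
  rw [← rep_one]
  ext ⟨i, h⟩
  rw [add_apply, smul_apply, lp.coeFn_add, Pi.add_apply,
    lp.coeFn_smul, Pi.smul_apply, rep_bb, rep_bb, rep_bb]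
  simp

lemma rep_unit {X : Matrix (Fin n) (Fin n) (MonoidAlgebra ℚ Γ)} (h : IsUnit X) :
    IsUnit (rep X) := by
  obtain ⟨Y, h1, h2⟩ := isUnit_iff_exists.1 h
  exact isUnit_iff_exists.2 ⟨rep Y, by rw [← rep_mul, h1, rep_one], by rw [← rep_mul, h2, rep_one]⟩

lemma exists_rho (k : Γ) : ∃ T : HH (Fin n × Γ) →L[ℂ] HH (Fin n × Γ),
    ∀ x i h, T x (i, h) = x (i, h * k) := by
  obtain ⟨T, hT⟩ := exists_op (ι := Fin n × Γ) (fun _ => True) (fun p => (p.1, p.2 * k))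
    (by
      rintro ⟨a, a'⟩ ⟨b, b'⟩ - - h3
      simpa using h3)
  exact ⟨T, fun x i h => by simpa using hT x (i, h)⟩

/-- right translations -/
noncomputable def rho (n : ℕ) (k : Γ) : HH (Fin n × Γ) →L[ℂ] HH (Fin n × Γ) :=
  (exists_rho k).choose

lemma rho_apply (k : Γ) (x : HH (Fin n × Γ)) (i : Fin n) (h : Γ) :
    rho n k x (i, h) = x (i, h * k) := (exists_rho k).choose_spec x i h

lemma rho_bb (k : Γ) (j : Fin n) (g : Γ) : rho n k (bb _ (j, g * k)) = bb _ (j, g) := by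
  classical
  ext ⟨i, h⟩
  rw [rho_apply, bb_apply, bb_apply]
  simp

lemma star_apply_bb {ι : Type} (T : HH ι →L[ℂ] HH ι) (k l : ι) :
    star T (bb ι l) k = starRingEnd ℂ (T (bb ι k) l) := by
  rw [← inner_bb, ContinuousLinearMap.star_eq_adjoint, ContinuousLinearMap.adjoint_inner_right,
    ← inner_conj_symm, inner_bb]

lemma star_rho (k : Γ) : star (rho n k) = rho n k⁻¹ := by
  classical
  refine ext_bb fun ⟨j, g⟩ => ?_
  ext ⟨i, h⟩
  rw [star_apply_bb, rho_apply, rho_apply, bb_apply, bb_apply]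
  have : (j, g * k) = (i, h) ↔ (i, h * k⁻¹) = (j, g) := by
    simp only [Prod.mk.injEq, mul_inv_eq_iff_eq_mul]
    exact ⟨fun h => ⟨h.1.symm, h.2.symm⟩, fun h => ⟨h.1.symm, h.2.symm⟩⟩
  simp only [this]
  split_ifs <;> simp

/-- the group von Neumann algebra -/
noncomputable def MM (Γ : Type) [Group Γ] (n : ℕ) :
    Subalgebra ℝ (HH (Fin n × Γ) →L[ℂ] HH (Fin n × Γ)) :=
  Subalgebra.centralizer ℝ (Set.range (rho n))

lemma mem_MM {T : HH (Fin n × Γ) →L[ℂ] HH (Fin n × Γ)} :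
    T ∈ MM Γ n ↔ ∀ k, rho n k * T = T * rho n k := by
  simp [MM, Subalgebra.mem_centralizer_iff]

lemma rep_mem (X : Matrix (Fin n) (Fin n) (MonoidAlgebra ℚ Γ)) : rep X ∈ MM Γ n := by
  refine mem_MM.2 fun k => ext_bb fun ⟨j, g⟩ => ?_
  ext ⟨i, h⟩
  have e : bb _ (j, g) = bb _ (j, g * k⁻¹ * k) := by rw [inv_mul_cancel_right]
  rw [mul_apply_eq_comp, mul_apply_eq_comp, rho_apply, rep_bb, e, rho_bb,
    rep_bb]
  congr 2
  group

lemma star_mem_MM (T : HH (Fin n × Γ) →L[ℂ] HH (Fin n × Γ)) (h : T ∈ MM Γ n) :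
    star T ∈ MM Γ n := by
  refine mem_MM.2 fun k => ?_
  have := congrArg star (mem_MM.1 h k⁻¹)
  rw [star_mul, star_mul, star_rho, inv_inv] at this
  exact this.symm

lemma inv_mem_MM (T : HH (Fin n × Γ) →L[ℂ] HH (Fin n × Γ)) (h : T ∈ MM Γ n)
    (S : HH (Fin n × Γ) →L[ℂ] HH (Fin n × Γ)) (h1 : T * S = 1) (h2 : S * T = 1) :
    S ∈ MM Γ n := by
  refine mem_MM.2 fun k => ?_
  calc rho n k * S = S * T * rho n k * S := by rw [h2, one_mul]
    _ = S * (T * rho n k) * S := by rw [mul_assoc S]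
    _ = S * rho n k * (T * S) := by rw [← mem_MM.1 h k]; noncomm_ring
    _ = S * rho n k := by rw [h1, mul_one]

lemma coeff_shift {T : HH (Fin n × Γ) →L[ℂ] HH (Fin n × Γ)} (hT : T ∈ MM Γ n) (i j : Fin n)
    (g : Γ) : T (bb _ (j, g)) (i, 1) = T (bb _ (j, 1)) (i, g⁻¹) := by
  have h1 := congrArg (fun S => S (bb _ (j, 1 * g)) (i, g⁻¹)) (mem_MM.1 hT g)
  simp only [mul_apply_eq_comp, rho_apply, rho_bb] at h1
  simpa using h1

lemma diag_mul {S T : HH (Fin n × Γ) →L[ℂ] HH (Fin n × Γ)} (hS : S ∈ MM Γ n) (i : Fin n) :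
    (S * T) (bb _ (i, 1)) (i, 1) =
      ∑ j, ∑' g, T (bb _ (i, 1)) (j, g) * S (bb _ (j, 1)) (i, g⁻¹) := by
  have h1 := ((bb (Fin n × Γ)).hasSum_repr (T (bb _ (i, 1)))).mapL
    ((innerSL ℂ (bb (Fin n × Γ) (i, 1))).comp S)
  simp only [ContinuousLinearMap.comp_apply, map_smul, innerSL_apply_apply, inner_bb,
    HilbertBasis.repr_apply_apply, smul_eq_mul] at h1
  rw [mul_apply_eq_comp, ← h1.tsum_eq, h1.summable.tsum_prod, tsum_fintype]
  refine Finset.sum_congr rfl fun j _ => tsum_congr fun g => ?_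
  rw [coeff_shift hS]

/-- the trace as a continuous functional -/
noncomputable def tau (Γ : Type) [Group Γ] (n : ℕ) :
    (HH (Fin n × Γ) →L[ℂ] HH (Fin n × Γ)) →L[ℝ] ℝ :=
  ∑ i : Fin n, Complex.reCLM.comp (((innerSL ℂ (bb (Fin n × Γ) (i, 1))).comp
    (ContinuousLinearMap.apply ℂ _ (bb (Fin n × Γ) (i, 1)))).restrictScalars ℝ)

lemma tau_eq (S : HH (Fin n × Γ) →L[ℂ] HH (Fin n × Γ)) : tau Γ n S = opTrace (bb _) S := by
  simp [tau, opTrace]

lemma tau_apply (S : HH (Fin n × Γ) →L[ℂ] HH (Fin n × Γ)) :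
    tau Γ n S = (∑ i, S (bb _ (i, 1)) (i, 1)).re := by
  simp [tau_eq, opTrace, inner_bb]

lemma tau_comm (S : HH (Fin n × Γ) →L[ℂ] HH (Fin n × Γ)) (hS : S ∈ MM Γ n)
    (T : HH (Fin n × Γ) →L[ℂ] HH (Fin n × Γ)) (hT : T ∈ MM Γ n) :
    tau Γ n (S * T) = tau Γ n (T * S) := by
  rw [tau_apply, tau_apply]
  congr 1
  simp only [diag_mul hS, diag_mul hT]
  rw [Finset.sum_comm]
  refine Finset.sum_congr rfl fun i _ => Finset.sum_congr rfl fun j _ => ?_
  rw [← (Equiv.inv Γ).tsum_eq]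
  exact tsum_congr fun g => by simp [mul_comm]

/-- logarithm of the determinant of a rational matrix -/
noncomputable def Del (X : Matrix (Fin n) (Fin n) (MonoidAlgebra ℚ Γ)) : ℝ :=
  logDet (bb _) (rep X)

lemma Del_mul {X Y : Matrix (Fin n) (Fin n) (MonoidAlgebra ℚ Γ)} (hX : IsUnit X) (hY : IsUnit Y) :
    Del (X * Y) = Del X + Del Y := by
  simp only [Del, rep_mul]
  exact logDet_mul _ (tau Γ n) tau_eq (MM Γ n) tau_comm star_mem_MM inv_mem_MM (rep_mem X)
    (rep_mem Y) (rep_unit hX) (rep_unit hY)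

lemma Del_proj {E : Matrix (Fin n) (Fin n) (MonoidAlgebra ℚ Γ)} (hE : E * E = E)
    (hs : ∀ i j g, (E i j).coeff g⁻¹ = (E j i).coeff g) (N : ℚ) :
    Del (1 + (N - 1) • E) = Real.log N * ((∑ i, (E i i).coeff 1 : ℚ) : ℝ) := by
  have hsa : IsSelfAdjoint (rep E) := by
    refine ext_bb fun ⟨j, g⟩ => ?_
    ext ⟨i, h⟩
    rw [star_apply_bb, rep_bb, rep_bb, ← hs]
    simp
  have hee : rep E * rep E = rep E := by rw [← rep_mul, hE]
  have := logDet_proj _ (tau Γ n) tau_eq hsa hee N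
  rw [Del, rep_one_add]
  push_cast
  refine this.trans ?_
  congr 1
  refine (tau_apply _).trans ?_
  simp [rep_bb]

lemma isRep (A : Matrix (Fin n) (Fin n) (MonoidAlgebra ℤ Γ)) :
    IsRegularRepOperator (bb _) A
      (rep (A.map (MonoidAlgebra.mapRingHom Γ (Int.castRingHom ℚ)))) := by
  intro i j g h
  rw [inner_bb, rep_bb]
  simp

end Crest.Agent.H0276
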